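import Vale.Agent.P181.Six.T.D0_0

set_option maxRecDepth 100000
set_option maxHeartbeats 0

namespace Vale.Agent.P181.K

noncomputable def tbT0 : L3 := tbl0 JT

noncomputable def bxT0_0 : L2 :=
 (Ls.cons (Ls.cons Ent.zero (Ls.cons Ent.zero (Ls.cons Ent.zero (Ls.cons Ent.zero (Ls.cons Ent.zero (Ls.cons (Ent.pos T0_5_4_0) (Ls.cons (Ent.neg T0_5_3_0) (Ls.cons (Ent.pos T0_5_2_0) (Ls.cons (Ent.neg T0_5_1_0) (Ls.cons Ent.zero Ls.nil))))))))))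
 (Ls.cons (Ls.cons Ent.zero (Ls.cons Ent.zero (Ls.cons Ent.zero (Ls.cons Ent.zero (Ls.cons (Ent.neg T0_5_4_0) (Ls.cons Ent.zero (Ls.cons (Ent.pos T0_4_3_0) (Ls.cons (Ent.neg T0_4_2_0) (Ls.cons (Ent.pos T0_4_1_0) (Ls.cons Ent.zero Ls.nil))))))))))
 (Ls.cons (Ls.cons Ent.zero (Ls.cons Ent.zero (Ls.cons Ent.zero (Ls.cons Ent.zero (Ls.cons (Ent.pos T0_5_3_0) (Ls.cons (Ent.neg T0_4_3_0) (Ls.cons Ent.zero (Ls.cons (Ent.pos T0_3_2_0) (Ls.cons (Ent.neg T0_3_1_0) (Ls.cons Ent.zero Ls.nil))))))))))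
 (Ls.cons (Ls.cons Ent.zero (Ls.cons Ent.zero (Ls.cons Ent.zero (Ls.cons Ent.zero (Ls.cons (Ent.neg T0_5_2_0) (Ls.cons (Ent.pos T0_4_2_0) (Ls.cons (Ent.neg T0_3_2_0) (Ls.cons Ent.zero (Ls.cons (Ent.pos T0_2_1_0) (Ls.cons Ent.zero Ls.nil))))))))))
 (Ls.cons (Ls.cons Ent.zero (Ls.cons Ent.zero (Ls.cons Ent.zero (Ls.cons Ent.zero (Ls.cons (Ent.pos T0_5_1_0) (Ls.cons (Ent.neg T0_4_1_0) (Ls.cons (Ent.pos T0_3_1_0) (Ls.cons (Ent.neg T0_2_1_0) (Ls.cons Ent.zero (Ls.cons Ent.zero Ls.nil))))))))))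
 (Ls.cons (Ls.cons Ent.zero (Ls.cons Ent.zero (Ls.cons Ent.zero (Ls.cons Ent.zero (Ls.cons Ent.zero (Ls.cons Ent.zero (Ls.cons Ent.zero (Ls.cons Ent.zero (Ls.cons Ent.zero (Ls.cons Ent.zero Ls.nil))))))))))
 Ls.nil))))))

noncomputable def bxT0_1 : L2 :=
 (Ls.cons (Ls.cons Ent.zero (Ls.cons Ent.zero (Ls.cons Ent.zero (Ls.cons Ent.zero (Ls.cons Ent.zero (Ls.cons (Ent.neg T0_5_4_1) (Ls.cons (Ent.pos T0_5_3_1) (Ls.cons (Ent.neg T0_5_2_1) (Ls.cons Ent.zero (Ls.cons (Ent.pos T0_5_1_0) Ls.nil))))))))))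
 (Ls.cons (Ls.cons Ent.zero (Ls.cons Ent.zero (Ls.cons Ent.zero (Ls.cons Ent.zero (Ls.cons (Ent.pos T0_5_4_1) (Ls.cons Ent.zero (Ls.cons (Ent.neg T0_4_3_1) (Ls.cons (Ent.pos T0_4_2_1) (Ls.cons Ent.zero (Ls.cons (Ent.neg T0_4_1_0) Ls.nil))))))))))
 (Ls.cons (Ls.cons Ent.zero (Ls.cons Ent.zero (Ls.cons Ent.zero (Ls.cons Ent.zero (Ls.cons (Ent.neg T0_5_3_1) (Ls.cons (Ent.pos T0_4_3_1) (Ls.cons Ent.zero (Ls.cons (Ent.neg T0_3_2_1) (Ls.cons Ent.zero (Ls.cons (Ent.pos T0_3_1_0) Ls.nil))))))))))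
 (Ls.cons (Ls.cons Ent.zero (Ls.cons Ent.zero (Ls.cons Ent.zero (Ls.cons Ent.zero (Ls.cons (Ent.pos T0_5_2_1) (Ls.cons (Ent.neg T0_4_2_1) (Ls.cons (Ent.pos T0_3_2_1) (Ls.cons Ent.zero (Ls.cons Ent.zero (Ls.cons (Ent.neg T0_2_1_0) Ls.nil))))))))))
 (Ls.cons (Ls.cons Ent.zero (Ls.cons Ent.zero (Ls.cons Ent.zero (Ls.cons Ent.zero (Ls.cons Ent.zero (Ls.cons Ent.zero (Ls.cons Ent.zero (Ls.cons Ent.zero (Ls.cons Ent.zero (Ls.cons Ent.zero Ls.nil))))))))))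
 (Ls.cons (Ls.cons Ent.zero (Ls.cons Ent.zero (Ls.cons Ent.zero (Ls.cons Ent.zero (Ls.cons (Ent.neg T0_5_1_0) (Ls.cons (Ent.pos T0_4_1_0) (Ls.cons (Ent.neg T0_3_1_0) (Ls.cons (Ent.pos T0_2_1_0) (Ls.cons Ent.zero (Ls.cons Ent.zero Ls.nil))))))))))
 Ls.nil))))))

noncomputable def bxT0_2 : L2 :=
 (Ls.cons (Ls.cons Ent.zero (Ls.cons Ent.zero (Ls.cons Ent.zero (Ls.cons Ent.zero (Ls.cons Ent.zero (Ls.cons (Ent.pos T0_5_4_2) (Ls.cons (Ent.neg T0_5_3_2) (Ls.cons Ent.zero (Ls.cons (Ent.pos T0_5_2_1) (Ls.cons (Ent.neg T0_5_2_0) Ls.nil))))))))))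
 (Ls.cons (Ls.cons Ent.zero (Ls.cons Ent.zero (Ls.cons Ent.zero (Ls.cons Ent.zero (Ls.cons (Ent.neg T0_5_4_2) (Ls.cons Ent.zero (Ls.cons (Ent.pos T0_4_3_2) (Ls.cons Ent.zero (Ls.cons (Ent.neg T0_4_2_1) (Ls.cons (Ent.pos T0_4_2_0) Ls.nil))))))))))
 (Ls.cons (Ls.cons Ent.zero (Ls.cons Ent.zero (Ls.cons Ent.zero (Ls.cons Ent.zero (Ls.cons (Ent.pos T0_5_3_2) (Ls.cons (Ent.neg T0_4_3_2) (Ls.cons Ent.zero (Ls.cons Ent.zero (Ls.cons (Ent.pos T0_3_2_1) (Ls.cons (Ent.neg T0_3_2_0) Ls.nil))))))))))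
 (Ls.cons (Ls.cons Ent.zero (Ls.cons Ent.zero (Ls.cons Ent.zero (Ls.cons Ent.zero (Ls.cons Ent.zero (Ls.cons Ent.zero (Ls.cons Ent.zero (Ls.cons Ent.zero (Ls.cons Ent.zero (Ls.cons Ent.zero Ls.nil))))))))))
 (Ls.cons (Ls.cons Ent.zero (Ls.cons Ent.zero (Ls.cons Ent.zero (Ls.cons Ent.zero (Ls.cons (Ent.neg T0_5_2_1) (Ls.cons (Ent.pos T0_4_2_1) (Ls.cons (Ent.neg T0_3_2_1) (Ls.cons Ent.zero (Ls.cons Ent.zero (Ls.cons (Ent.pos T0_2_1_0) Ls.nil))))))))))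
 (Ls.cons (Ls.cons Ent.zero (Ls.cons Ent.zero (Ls.cons Ent.zero (Ls.cons Ent.zero (Ls.cons (Ent.pos T0_5_2_0) (Ls.cons (Ent.neg T0_4_2_0) (Ls.cons (Ent.pos T0_3_2_0) (Ls.cons Ent.zero (Ls.cons (Ent.neg T0_2_1_0) (Ls.cons Ent.zero Ls.nil))))))))))
 Ls.nil))))))

noncomputable def boxT0 : L3 := (Ls.cons bxT0_2 (Ls.cons bxT0_1 (Ls.cons bxT0_0 Ls.nil)))

noncomputable def bsT1 : Ls L3 := Ls.cons boxT0 Ls.nil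

end Vale.Agent.P181.K
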