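import Vale.Agent.P181.Six.T.D2_0
import Vale.Agent.P181.Six.T.B1

set_option maxRecDepth 100000
set_option maxHeartbeats 0

namespace Vale.Agent.P181.K

noncomputable def cT2_0_0 : L2 :=
 (Ls.cons Ls.nil
 (Ls.cons (Ls.cons Ent.zero (Ls.cons (Ent.neg T2_8_1_0) (Ls.cons Ent.zero (Ls.cons (Ent.neg T2_6_1_0) (Ls.cons Ent.zero (Ls.cons (Ent.neg T2_4_1_0) (Ls.cons (Ent.pos T2_3_1_0) (Ls.cons (Ent.neg T2_2_1_0) Ls.nil))))))))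
 (Ls.cons (Ls.cons Ent.zero (Ls.cons Ent.zero (Ls.cons Ent.zero (Ls.cons (Ent.pos T2_6_2_0) (Ls.cons Ent.zero (Ls.cons (Ent.pos T2_4_2_0) (Ls.cons (Ent.neg T2_3_2_0) Ls.nil)))))))
 (Ls.cons (Ls.cons Ent.zero (Ls.cons Ent.zero (Ls.cons Ent.zero (Ls.cons (Ent.neg T2_6_3_0) (Ls.cons Ent.zero (Ls.cons (Ent.neg T2_4_3_0) Ls.nil))))))
 (Ls.cons (Ls.cons Ent.zero (Ls.cons Ent.zero (Ls.cons Ent.zero (Ls.cons Ent.zero (Ls.cons Ent.zero Ls.nil)))))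
 (Ls.cons (Ls.cons Ent.zero (Ls.cons Ent.zero (Ls.cons Ent.zero (Ls.cons Ent.zero Ls.nil))))
 Ls.nil))))))

noncomputable def cT2_1_0 : L2 :=
 (Ls.cons Ls.nil
 (Ls.cons Ls.nil
 (Ls.cons (Ls.cons Ent.zero (Ls.cons Ent.zero (Ls.cons Ent.zero (Ls.cons (Ent.neg T2_6_2_1) (Ls.cons Ent.zero (Ls.cons (Ent.neg T2_4_2_1) (Ls.cons (Ent.pos T2_3_2_1) Ls.nil)))))))
 (Ls.cons (Ls.cons Ent.zero (Ls.cons Ent.zero (Ls.cons Ent.zero (Ls.cons (Ent.pos T2_6_3_1) (Ls.cons Ent.zero (Ls.cons (Ent.pos T2_4_3_1) Ls.nil))))))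
 (Ls.cons (Ls.cons Ent.zero (Ls.cons Ent.zero (Ls.cons Ent.zero (Ls.cons Ent.zero (Ls.cons Ent.zero Ls.nil)))))
 (Ls.cons Ls.nil
 Ls.nil))))))

noncomputable def cT2_2_0 : L2 :=
 (Ls.cons Ls.nil
 (Ls.cons Ls.nil
 (Ls.cons Ls.nil
 (Ls.cons (Ls.cons Ent.zero (Ls.cons Ent.zero (Ls.cons Ent.zero (Ls.cons Ent.zero (Ls.cons Ent.zero (Ls.cons (Ent.neg T2_4_3_2) Ls.nil))))))
 (Ls.cons Ls.nil
 (Ls.cons Ls.nil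
 Ls.nil))))))

noncomputable def tbT2 : L3 := (Ls.cons cT2_0_0 (Ls.cons cT2_1_0 (Ls.cons cT2_2_0 Ls.nil)))

noncomputable def bxT2_0 : L2 :=
 (Ls.cons (Ls.cons Ent.zero (Ls.cons Ent.zero (Ls.cons Ent.zero (Ls.cons Ent.zero (Ls.cons Ent.zero (Ls.cons Ent.zero (Ls.cons Ent.zero (Ls.cons Ent.zero (Ls.cons Ent.zero (Ls.cons Ent.zero Ls.nil))))))))))
 (Ls.cons (Ls.cons Ent.zero (Ls.cons Ent.zero (Ls.cons Ent.zero (Ls.cons Ent.zero (Ls.cons Ent.zero (Ls.cons Ent.zero (Ls.cons (Ent.pos T2_4_3_0) (Ls.cons (Ent.neg T2_4_2_0) (Ls.cons (Ent.pos T2_4_1_0) (Ls.cons Ent.zero Ls.nil))))))))))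
 (Ls.cons (Ls.cons Ent.zero (Ls.cons Ent.zero (Ls.cons Ent.zero (Ls.cons (Ent.neg T2_6_3_0) (Ls.cons Ent.zero (Ls.cons (Ent.neg T2_4_3_0) (Ls.cons Ent.zero (Ls.cons (Ent.pos T2_3_2_0) (Ls.cons (Ent.neg T2_3_1_0) (Ls.cons Ent.zero Ls.nil))))))))))
 (Ls.cons (Ls.cons Ent.zero (Ls.cons Ent.zero (Ls.cons Ent.zero (Ls.cons (Ent.pos T2_6_2_0) (Ls.cons Ent.zero (Ls.cons (Ent.pos T2_4_2_0) (Ls.cons (Ent.neg T2_3_2_0) (Ls.cons Ent.zero (Ls.cons (Ent.pos T2_2_1_0) (Ls.cons Ent.zero Ls.nil))))))))))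
 (Ls.cons (Ls.cons Ent.zero (Ls.cons (Ent.neg T2_8_1_0) (Ls.cons Ent.zero (Ls.cons (Ent.neg T2_6_1_0) (Ls.cons Ent.zero (Ls.cons (Ent.neg T2_4_1_0) (Ls.cons (Ent.pos T2_3_1_0) (Ls.cons (Ent.neg T2_2_1_0) (Ls.cons Ent.zero (Ls.cons Ent.zero Ls.nil))))))))))
 (Ls.cons (Ls.cons Ent.zero (Ls.cons Ent.zero (Ls.cons Ent.zero (Ls.cons Ent.zero (Ls.cons Ent.zero (Ls.cons Ent.zero (Ls.cons Ent.zero (Ls.cons Ent.zero (Ls.cons Ent.zero (Ls.cons Ent.zero Ls.nil))))))))))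
 Ls.nil))))))

noncomputable def bxT2_1 : L2 :=
 (Ls.cons (Ls.cons Ent.zero (Ls.cons Ent.zero (Ls.cons Ent.zero (Ls.cons Ent.zero (Ls.cons Ent.zero (Ls.cons Ent.zero (Ls.cons Ent.zero (Ls.cons Ent.zero (Ls.cons Ent.zero (Ls.cons Ent.zero Ls.nil))))))))))
 (Ls.cons (Ls.cons Ent.zero (Ls.cons Ent.zero (Ls.cons Ent.zero (Ls.cons Ent.zero (Ls.cons Ent.zero (Ls.cons Ent.zero (Ls.cons (Ent.neg T2_4_3_1) (Ls.cons (Ent.pos T2_4_2_1) (Ls.cons Ent.zero (Ls.cons (Ent.neg T2_4_1_0) Ls.nil))))))))))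
 (Ls.cons (Ls.cons Ent.zero (Ls.cons Ent.zero (Ls.cons Ent.zero (Ls.cons (Ent.pos T2_6_3_1) (Ls.cons Ent.zero (Ls.cons (Ent.pos T2_4_3_1) (Ls.cons Ent.zero (Ls.cons (Ent.neg T2_3_2_1) (Ls.cons Ent.zero (Ls.cons (Ent.pos T2_3_1_0) Ls.nil))))))))))
 (Ls.cons (Ls.cons Ent.zero (Ls.cons Ent.zero (Ls.cons Ent.zero (Ls.cons (Ent.neg T2_6_2_1) (Ls.cons Ent.zero (Ls.cons (Ent.neg T2_4_2_1) (Ls.cons (Ent.pos T2_3_2_1) (Ls.cons Ent.zero (Ls.cons Ent.zero (Ls.cons (Ent.neg T2_2_1_0) Ls.nil))))))))))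
 (Ls.cons (Ls.cons Ent.zero (Ls.cons Ent.zero (Ls.cons Ent.zero (Ls.cons Ent.zero (Ls.cons Ent.zero (Ls.cons Ent.zero (Ls.cons Ent.zero (Ls.cons Ent.zero (Ls.cons Ent.zero (Ls.cons Ent.zero Ls.nil))))))))))
 (Ls.cons (Ls.cons Ent.zero (Ls.cons (Ent.pos T2_8_1_0) (Ls.cons Ent.zero (Ls.cons (Ent.pos T2_6_1_0) (Ls.cons Ent.zero (Ls.cons (Ent.pos T2_4_1_0) (Ls.cons (Ent.neg T2_3_1_0) (Ls.cons (Ent.pos T2_2_1_0) (Ls.cons Ent.zero (Ls.cons Ent.zero Ls.nil))))))))))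
 Ls.nil))))))

noncomputable def bxT2_2 : L2 :=
 (Ls.cons (Ls.cons Ent.zero (Ls.cons Ent.zero (Ls.cons Ent.zero (Ls.cons Ent.zero (Ls.cons Ent.zero (Ls.cons Ent.zero (Ls.cons Ent.zero (Ls.cons Ent.zero (Ls.cons Ent.zero (Ls.cons Ent.zero Ls.nil))))))))))
 (Ls.cons (Ls.cons Ent.zero (Ls.cons Ent.zero (Ls.cons Ent.zero (Ls.cons Ent.zero (Ls.cons Ent.zero (Ls.cons Ent.zero (Ls.cons (Ent.pos T2_4_3_2) (Ls.cons Ent.zero (Ls.cons (Ent.neg T2_4_2_1) (Ls.cons (Ent.pos T2_4_2_0) Ls.nil))))))))))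
 (Ls.cons (Ls.cons Ent.zero (Ls.cons Ent.zero (Ls.cons Ent.zero (Ls.cons Ent.zero (Ls.cons Ent.zero (Ls.cons (Ent.neg T2_4_3_2) (Ls.cons Ent.zero (Ls.cons Ent.zero (Ls.cons (Ent.pos T2_3_2_1) (Ls.cons (Ent.neg T2_3_2_0) Ls.nil))))))))))
 (Ls.cons (Ls.cons Ent.zero (Ls.cons Ent.zero (Ls.cons Ent.zero (Ls.cons Ent.zero (Ls.cons Ent.zero (Ls.cons Ent.zero (Ls.cons Ent.zero (Ls.cons Ent.zero (Ls.cons Ent.zero (Ls.cons Ent.zero Ls.nil))))))))))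
 (Ls.cons (Ls.cons Ent.zero (Ls.cons Ent.zero (Ls.cons Ent.zero (Ls.cons (Ent.pos T2_6_2_1) (Ls.cons Ent.zero (Ls.cons (Ent.pos T2_4_2_1) (Ls.cons (Ent.neg T2_3_2_1) (Ls.cons Ent.zero (Ls.cons Ent.zero (Ls.cons (Ent.pos T2_2_1_0) Ls.nil))))))))))
 (Ls.cons (Ls.cons Ent.zero (Ls.cons Ent.zero (Ls.cons Ent.zero (Ls.cons (Ent.neg T2_6_2_0) (Ls.cons Ent.zero (Ls.cons (Ent.neg T2_4_2_0) (Ls.cons (Ent.pos T2_3_2_0) (Ls.cons Ent.zero (Ls.cons (Ent.neg T2_2_1_0) (Ls.cons Ent.zero Ls.nil))))))))))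
 Ls.nil))))))

noncomputable def boxT2 : L3 := (Ls.cons bxT2_2 (Ls.cons bxT2_1 (Ls.cons bxT2_0 Ls.nil)))

noncomputable def bsT3 : Ls L3 := Ls.cons boxT2 bsT2

end Vale.Agent.P181.K
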