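import Vale.Agent.P181.Six.T.D17_0
import Vale.Agent.P181.Six.T.B16

set_option maxRecDepth 100000
set_option maxHeartbeats 0

namespace Vale.Agent.P181.K

noncomputable def cT17_0_0 : L2 :=
 (Ls.cons Ls.nil
 (Ls.cons (Ls.cons (Ent.neg T17_9_1_0) (Ls.cons (Ent.neg T17_8_1_0) (Ls.cons (Ent.neg T17_7_1_0) (Ls.cons (Ent.neg T17_6_1_0) (Ls.cons (Ent.neg T17_5_1_0) (Ls.cons (Ent.neg T17_4_1_0) (Ls.cons (Ent.neg T17_3_1_0) (Ls.cons (Ent.pos T17_2_1_0) Ls.nil))))))))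
 (Ls.cons (Ls.cons Ent.zero (Ls.cons Ent.zero (Ls.cons (Ent.pos T17_7_2_0) (Ls.cons (Ent.pos T17_6_2_0) (Ls.cons (Ent.pos T17_5_2_0) (Ls.cons (Ent.pos T17_4_2_0) (Ls.cons (Ent.pos T17_3_2_0) Ls.nil)))))))
 (Ls.cons (Ls.cons Ent.zero (Ls.cons Ent.zero (Ls.cons (Ent.pos T17_7_3_0) (Ls.cons (Ent.pos T17_6_3_0) (Ls.cons (Ent.pos T17_5_3_0) (Ls.cons (Ent.pos T17_4_3_0) Ls.nil))))))
 (Ls.cons (Ls.cons Ent.zero (Ls.cons Ent.zero (Ls.cons Ent.zero (Ls.cons (Ent.pos T17_6_4_0) (Ls.cons (Ent.pos T17_5_4_0) Ls.nil)))))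
 (Ls.cons (Ls.cons Ent.zero (Ls.cons Ent.zero (Ls.cons Ent.zero (Ls.cons (Ent.pos T17_6_5_0) Ls.nil))))
 Ls.nil))))))

noncomputable def cT17_1_0 : L2 :=
 (Ls.cons Ls.nil
 (Ls.cons Ls.nil
 (Ls.cons (Ls.cons Ent.zero (Ls.cons Ent.zero (Ls.cons (Ent.neg T17_7_2_1) (Ls.cons (Ent.neg T17_6_2_1) (Ls.cons (Ent.neg T17_5_2_1) (Ls.cons (Ent.neg T17_4_2_1) (Ls.cons (Ent.neg T17_3_2_1) Ls.nil)))))))
 (Ls.cons (Ls.cons Ent.zero (Ls.cons Ent.zero (Ls.cons Ent.zero (Ls.cons (Ent.neg T17_6_3_1) (Ls.cons (Ent.neg T17_5_3_1) (Ls.cons (Ent.neg T17_4_3_1) Ls.nil))))))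
 (Ls.cons (Ls.cons Ent.zero (Ls.cons Ent.zero (Ls.cons Ent.zero (Ls.cons Ent.zero (Ls.cons (Ent.neg T17_5_4_1) Ls.nil)))))
 (Ls.cons Ls.nil
 Ls.nil))))))

noncomputable def cT17_2_0 : L2 :=
 (Ls.cons Ls.nil
 (Ls.cons Ls.nil
 (Ls.cons Ls.nil
 (Ls.cons (Ls.cons Ent.zero (Ls.cons Ent.zero (Ls.cons Ent.zero (Ls.cons Ent.zero (Ls.cons (Ent.neg T17_5_3_2) (Ls.cons (Ent.neg T17_4_3_2) Ls.nil))))))
 (Ls.cons Ls.nil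
 (Ls.cons Ls.nil
 Ls.nil))))))

noncomputable def tbT17 : L3 := (Ls.cons cT17_0_0 (Ls.cons cT17_1_0 (Ls.cons cT17_2_0 Ls.nil)))

noncomputable def bxT17_0 : L2 :=
 (Ls.cons (Ls.cons Ent.zero (Ls.cons Ent.zero (Ls.cons Ent.zero (Ls.cons (Ent.pos T17_6_5_0) (Ls.cons Ent.zero (Ls.cons (Ent.neg T17_5_4_0) (Ls.cons (Ent.neg T17_5_3_0) (Ls.cons (Ent.neg T17_5_2_0) (Ls.cons (Ent.pos T17_5_1_0) (Ls.cons Ent.zero Ls.nil))))))))))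
 (Ls.cons (Ls.cons Ent.zero (Ls.cons Ent.zero (Ls.cons Ent.zero (Ls.cons (Ent.pos T17_6_4_0) (Ls.cons (Ent.pos T17_5_4_0) (Ls.cons Ent.zero (Ls.cons (Ent.neg T17_4_3_0) (Ls.cons (Ent.neg T17_4_2_0) (Ls.cons (Ent.pos T17_4_1_0) (Ls.cons Ent.zero Ls.nil))))))))))
 (Ls.cons (Ls.cons Ent.zero (Ls.cons Ent.zero (Ls.cons (Ent.pos T17_7_3_0) (Ls.cons (Ent.pos T17_6_3_0) (Ls.cons (Ent.pos T17_5_3_0) (Ls.cons (Ent.pos T17_4_3_0) (Ls.cons Ent.zero (Ls.cons (Ent.neg T17_3_2_0) (Ls.cons (Ent.pos T17_3_1_0) (Ls.cons Ent.zero Ls.nil))))))))))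
 (Ls.cons (Ls.cons Ent.zero (Ls.cons Ent.zero (Ls.cons (Ent.pos T17_7_2_0) (Ls.cons (Ent.pos T17_6_2_0) (Ls.cons (Ent.pos T17_5_2_0) (Ls.cons (Ent.pos T17_4_2_0) (Ls.cons (Ent.pos T17_3_2_0) (Ls.cons Ent.zero (Ls.cons (Ent.neg T17_2_1_0) (Ls.cons Ent.zero Ls.nil))))))))))
 (Ls.cons (Ls.cons (Ent.neg T17_9_1_0) (Ls.cons (Ent.neg T17_8_1_0) (Ls.cons (Ent.neg T17_7_1_0) (Ls.cons (Ent.neg T17_6_1_0) (Ls.cons (Ent.neg T17_5_1_0) (Ls.cons (Ent.neg T17_4_1_0) (Ls.cons (Ent.neg T17_3_1_0) (Ls.cons (Ent.pos T17_2_1_0) (Ls.cons Ent.zero (Ls.cons Ent.zero Ls.nil))))))))))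
 (Ls.cons (Ls.cons Ent.zero (Ls.cons Ent.zero (Ls.cons Ent.zero (Ls.cons Ent.zero (Ls.cons Ent.zero (Ls.cons Ent.zero (Ls.cons Ent.zero (Ls.cons Ent.zero (Ls.cons Ent.zero (Ls.cons Ent.zero Ls.nil))))))))))
 Ls.nil))))))

noncomputable def bxT17_1 : L2 :=
 (Ls.cons (Ls.cons Ent.zero (Ls.cons Ent.zero (Ls.cons Ent.zero (Ls.cons Ent.zero (Ls.cons Ent.zero (Ls.cons (Ent.pos T17_5_4_1) (Ls.cons (Ent.pos T17_5_3_1) (Ls.cons (Ent.pos T17_5_2_1) (Ls.cons Ent.zero (Ls.cons (Ent.neg T17_5_1_0) Ls.nil))))))))))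
 (Ls.cons (Ls.cons Ent.zero (Ls.cons Ent.zero (Ls.cons Ent.zero (Ls.cons Ent.zero (Ls.cons (Ent.neg T17_5_4_1) (Ls.cons Ent.zero (Ls.cons (Ent.pos T17_4_3_1) (Ls.cons (Ent.pos T17_4_2_1) (Ls.cons Ent.zero (Ls.cons (Ent.neg T17_4_1_0) Ls.nil))))))))))
 (Ls.cons (Ls.cons Ent.zero (Ls.cons Ent.zero (Ls.cons Ent.zero (Ls.cons (Ent.neg T17_6_3_1) (Ls.cons (Ent.neg T17_5_3_1) (Ls.cons (Ent.neg T17_4_3_1) (Ls.cons Ent.zero (Ls.cons (Ent.pos T17_3_2_1) (Ls.cons Ent.zero (Ls.cons (Ent.neg T17_3_1_0) Ls.nil))))))))))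
 (Ls.cons (Ls.cons Ent.zero (Ls.cons Ent.zero (Ls.cons (Ent.neg T17_7_2_1) (Ls.cons (Ent.neg T17_6_2_1) (Ls.cons (Ent.neg T17_5_2_1) (Ls.cons (Ent.neg T17_4_2_1) (Ls.cons (Ent.neg T17_3_2_1) (Ls.cons Ent.zero (Ls.cons Ent.zero (Ls.cons (Ent.pos T17_2_1_0) Ls.nil))))))))))
 (Ls.cons (Ls.cons Ent.zero (Ls.cons Ent.zero (Ls.cons Ent.zero (Ls.cons Ent.zero (Ls.cons Ent.zero (Ls.cons Ent.zero (Ls.cons Ent.zero (Ls.cons Ent.zero (Ls.cons Ent.zero (Ls.cons Ent.zero Ls.nil))))))))))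
 (Ls.cons (Ls.cons (Ent.pos T17_9_1_0) (Ls.cons (Ent.pos T17_8_1_0) (Ls.cons (Ent.pos T17_7_1_0) (Ls.cons (Ent.pos T17_6_1_0) (Ls.cons (Ent.pos T17_5_1_0) (Ls.cons (Ent.pos T17_4_1_0) (Ls.cons (Ent.pos T17_3_1_0) (Ls.cons (Ent.neg T17_2_1_0) (Ls.cons Ent.zero (Ls.cons Ent.zero Ls.nil))))))))))
 Ls.nil))))))

noncomputable def bxT17_2 : L2 :=
 (Ls.cons (Ls.cons Ent.zero (Ls.cons Ent.zero (Ls.cons Ent.zero (Ls.cons Ent.zero (Ls.cons Ent.zero (Ls.cons Ent.zero (Ls.cons (Ent.pos T17_5_3_2) (Ls.cons Ent.zero (Ls.cons (Ent.neg T17_5_2_1) (Ls.cons (Ent.pos T17_5_2_0) Ls.nil))))))))))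
 (Ls.cons (Ls.cons Ent.zero (Ls.cons Ent.zero (Ls.cons Ent.zero (Ls.cons Ent.zero (Ls.cons Ent.zero (Ls.cons Ent.zero (Ls.cons (Ent.pos T17_4_3_2) (Ls.cons Ent.zero (Ls.cons (Ent.neg T17_4_2_1) (Ls.cons (Ent.pos T17_4_2_0) Ls.nil))))))))))
 (Ls.cons (Ls.cons Ent.zero (Ls.cons Ent.zero (Ls.cons Ent.zero (Ls.cons Ent.zero (Ls.cons (Ent.neg T17_5_3_2) (Ls.cons (Ent.neg T17_4_3_2) (Ls.cons Ent.zero (Ls.cons Ent.zero (Ls.cons (Ent.neg T17_3_2_1) (Ls.cons (Ent.pos T17_3_2_0) Ls.nil))))))))))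
 (Ls.cons (Ls.cons Ent.zero (Ls.cons Ent.zero (Ls.cons Ent.zero (Ls.cons Ent.zero (Ls.cons Ent.zero (Ls.cons Ent.zero (Ls.cons Ent.zero (Ls.cons Ent.zero (Ls.cons Ent.zero (Ls.cons Ent.zero Ls.nil))))))))))
 (Ls.cons (Ls.cons Ent.zero (Ls.cons Ent.zero (Ls.cons (Ent.pos T17_7_2_1) (Ls.cons (Ent.pos T17_6_2_1) (Ls.cons (Ent.pos T17_5_2_1) (Ls.cons (Ent.pos T17_4_2_1) (Ls.cons (Ent.pos T17_3_2_1) (Ls.cons Ent.zero (Ls.cons Ent.zero (Ls.cons (Ent.neg T17_2_1_0) Ls.nil))))))))))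
 (Ls.cons (Ls.cons Ent.zero (Ls.cons Ent.zero (Ls.cons (Ent.neg T17_7_2_0) (Ls.cons (Ent.neg T17_6_2_0) (Ls.cons (Ent.neg T17_5_2_0) (Ls.cons (Ent.neg T17_4_2_0) (Ls.cons (Ent.neg T17_3_2_0) (Ls.cons Ent.zero (Ls.cons (Ent.pos T17_2_1_0) (Ls.cons Ent.zero Ls.nil))))))))))
 Ls.nil))))))

noncomputable def boxT17 : L3 := (Ls.cons bxT17_2 (Ls.cons bxT17_1 (Ls.cons bxT17_0 Ls.nil)))

noncomputable def bsT18 : Ls L3 := Ls.cons boxT17 bsT17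

end Vale.Agent.P181.K
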