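import Vale.Agent.P181.Six.T.H

set_option maxRecDepth 100000
set_option maxHeartbeats 0

namespace Vale.Agent.P181.K

noncomputable def T0_2_1_0 : Sv := un nT oT1_6
 (T.n (nat_lit 31356) (T.s (nat_lit 23608) (T.l (nat_lit 0x30000000000001)))
 (T.n (nat_lit 7800) (T.l (nat_lit 0x100000000000000000000000003))
 (T.l (nat_lit 0x30000000000001))))

noncomputable def T0_3_1_0 : Sv := up nT oT1_6
 (T.n (nat_lit 31304) (T.s (nat_lit 15808) (T.l (nat_lit 0x10000000000003)))
 (T.n (nat_lit 7800) (T.l (nat_lit 0x3000000000000000000000000000000000000001))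
 (T.l (nat_lit 0x100000000000000000000000003))))

noncomputable def T0_4_1_0 : Sv := un nT oT1_6
 (T.n (nat_lit 23504) (T.s (nat_lit 15756) (T.l (nat_lit 0x300000000000000000000000001)))
 (T.n (nat_lit 15600) (T.l (nat_lit 0x1000000000000000000000000000000000000003))
 (T.l (nat_lit 0x30000000000001))))

noncomputable def T0_5_1_0 : Sv := up nT oT1_5
 (T.n (nat_lit 23504) (T.s (nat_lit 15756) (T.l (nat_lit 0x10000000000003)))
 (T.n (nat_lit 7800) (T.l (nat_lit 0x300000000000000000000000001))
 (T.l (nat_lit 0x10000000000003))))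

noncomputable def T0_3_2_0 : Sv := un nT oT1_6
 (T.a (nat_lit 2) (nat_lit 23400) (T.n (nat_lit 15652) (T.s (nat_lit 7852) (T.l (nat_lit 0x7000000000000100000000000000000000000000000000000000c)))
 (T.l (nat_lit 0xc000000000000000000000000000000000000004))))

noncomputable def T0_4_2_0 : Sv := up nT oT1_6
 (T.a (nat_lit 2) (nat_lit 15600) (T.a (nat_lit 4) (nat_lit 31200) (T.s (nat_lit 7852) (T.l (nat_lit 0xd0000000000000000000000001300000000000000000000000034)))))

noncomputable def T0_5_2_0 : Sv := un nT oT1_5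
 (T.n (nat_lit 23452) (T.s (nat_lit 7956) (T.l (nat_lit 0x30000000000001)))
 (T.n (nat_lit 7800) (T.l (nat_lit 0x1000000000000000000000000000000000000003))
 (T.l (nat_lit 0x300000000000000000000000001))))

noncomputable def T0_4_3_0 : Sv := un nT oT1_6
 (T.a (nat_lit 2) (nat_lit 23400) (T.n (nat_lit 15652) (T.s (nat_lit 7904) (T.l (nat_lit 0x3000000000000000000000000000000000000001)))
 (T.l (nat_lit 0x100000000000000000000000000000000000000c0000000000007))))

noncomputable def T0_5_3_0 : Sv := up nT oT1_5
 (T.n (nat_lit 15652) (T.s (nat_lit 7904) (T.l (nat_lit 0x100000000000000000000000003)))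
 (T.n (nat_lit 15600) (T.l (nat_lit 0x3000000000000000000000000000000000000001))
 (T.l (nat_lit 0x10000000000003))))

noncomputable def T0_5_4_0 : Sv := un nT oT1_4
 (T.a (nat_lit 2) (nat_lit 7800) (T.a (nat_lit 4) (nat_lit 15600) (T.s (nat_lit 52) (T.l (nat_lit 0x1c00000000000c40000000000070)))))

noncomputable def T0_3_2_1 : Sv := up nT oT1_6
 (T.a (nat_lit 2) (nat_lit 7800) (T.a (nat_lit 4) (nat_lit 15600) (T.a (nat_lit 8) (nat_lit 31200) (T.l (nat_lit 0x30100000000004030000000000000000000000000000000000000000000000000d00)))))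

noncomputable def T0_4_2_1 : Sv := un nT oT1_6
 (T.a (nat_lit 2) (nat_lit 23400) (T.n (nat_lit 15600) (T.l (nat_lit 0x70000000000000000000000000100000000000000000000000000000000000000c))
 (T.l (nat_lit 0xc000000000000000000000000000000000000004))))

noncomputable def T0_5_2_1 : Sv := up nT oT1_5
 (T.a (nat_lit 2) (nat_lit 23400) (T.n (nat_lit 7800) (T.l (nat_lit 0xd0000000000003000000000000000000000000000000000000004))
 (T.l (nat_lit 0x400000000000000000000000000000000000000c))))

noncomputable def T0_4_3_1 : Sv := up nT oT1_6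
 (T.a (nat_lit 2) (nat_lit 23400) (T.n (nat_lit 15600) (T.s (nat_lit 104) (T.l (nat_lit 0x1000000000000000000000000000000000000003)))
 (T.l (nat_lit 0x30000000000000000000000000000000000000040000000000000000000000000d))))

noncomputable def T0_5_3_1 : Sv := un nT oT1_5
 (T.a (nat_lit 2) (nat_lit 15600) (T.a (nat_lit 4) (nat_lit 31200) (T.l (nat_lit 0x7000000000000000000000000310000000000000000000000001c))))

noncomputable def T0_5_4_1 : Sv := up nT oT1_4
 (T.a (nat_lit 2) (nat_lit 7800) (T.a (nat_lit 4) (nat_lit 15600) (T.l (nat_lit 0x310000000000043000000000000000000000000d0))))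

noncomputable def T0_4_3_2 : Sv := un nT oT1_6
 (T.a (nat_lit 2) (nat_lit 7800) (T.a (nat_lit 4) (nat_lit 15600) (T.a (nat_lit 8) (nat_lit 31200) (T.l (nat_lit 0x70000000000000000000000000000000000000000000000000c01000000000040c)))))

noncomputable def T0_5_3_2 : Sv := up nT oT1_5
 (T.a (nat_lit 2) (nat_lit 23400) (T.n (nat_lit 7800) (T.s (nat_lit 52) (T.l (nat_lit 0x1000000000000000000000000000000000000003)))
 (T.l (nat_lit 0x3000000000000000000000000000000000000004000000000000d))))

noncomputable def T0_5_4_2 : Sv := un nT oT1_4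
 (T.a (nat_lit 2) (nat_lit 7800) (T.a (nat_lit 4) (nat_lit 15600) (T.l (nat_lit 0x7000000000000000000000000c1000000000004c))))


end Vale.Agent.P181.K
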