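import Vale.Agent.P181.Six.K3

set_option maxRecDepth 100000
set_option maxHeartbeats 0

namespace Vale.Agent.P181.K

noncomputable def JT : Job := ⟨6, 150, 52, 159, 10, 6, 3⟩

noncomputable def tT : Ls (Ls Nat) := (Ls.cons (Ls.cons 10 (Ls.cons 10 (Ls.cons 8 (Ls.cons 8 (Ls.cons 7 (Ls.cons 7 Ls.nil)))))) (Ls.cons (Ls.cons 8 (Ls.cons 8 (Ls.cons 8 (Ls.cons 7 (Ls.cons 6 (Ls.cons 0 Ls.nil)))))) (Ls.cons (Ls.cons 6 (Ls.cons 6 (Ls.cons 6 (Ls.cons 6 (Ls.cons 0 (Ls.cons 0 Ls.nil)))))) Ls.nil)))

noncomputable def nT : Nat := JT.ones

noncomputable def oT1_4 : Nat := om JT 1 4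
noncomputable def oT1_5 : Nat := om JT 1 5
noncomputable def oT1_6 : Nat := om JT 1 6
noncomputable def oT1_12 : Nat := om JT 1 12
noncomputable def oT1_14 : Nat := om JT 1 14
noncomputable def oT1_16 : Nat := om JT 1 16
noncomputable def oT1_18 : Nat := om JT 1 18
noncomputable def oT1_19 : Nat := om JT 1 19
noncomputable def oT1_20 : Nat := om JT 1 20
noncomputable def oT1_21 : Nat := om JT 1 21
noncomputable def oT1_22 : Nat := om JT 1 22
noncomputable def oT1_24 : Nat := om JT 1 24
noncomputable def oT1_26 : Nat := om JT 1 26
noncomputable def oT1_30 : Nat := om JT 1 30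
noncomputable def oT1_36 : Nat := om JT 1 36
noncomputable def oT2_23 : Nat := om JT 2 23
noncomputable def oT2_24 : Nat := om JT 2 24
noncomputable def oT2_25 : Nat := om JT 2 25
noncomputable def oT2_26 : Nat := om JT 2 26
noncomputable def oT2_27 : Nat := om JT 2 27
noncomputable def oT2_28 : Nat := om JT 2 28
noncomputable def oT2_30 : Nat := om JT 2 30
noncomputable def oT2_36 : Nat := om JT 2 36
noncomputable def oT3_26 : Nat := om JT 3 26
noncomputable def oT3_27 : Nat := om JT 3 27
noncomputable def oT3_30 : Nat := om JT 3 30
noncomputable def oT3_32 : Nat := om JT 3 32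
noncomputable def oT3_36 : Nat := om JT 3 36
noncomputable def oT3_42 : Nat := om JT 3 42
noncomputable def oT4_29 : Nat := om JT 4 29
noncomputable def oT4_30 : Nat := om JT 4 30
noncomputable def oT4_32 : Nat := om JT 4 32
noncomputable def oT4_33 : Nat := om JT 4 33
noncomputable def oT4_34 : Nat := om JT 4 34
noncomputable def oT4_36 : Nat := om JT 4 36
noncomputable def oT4_42 : Nat := om JT 4 42
noncomputable def oT5_31 : Nat := om JT 5 31
noncomputable def oT5_33 : Nat := om JT 5 33
noncomputable def oT5_35 : Nat := om JT 5 35
noncomputable def oT5_36 : Nat := om JT 5 36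
noncomputable def oT5_38 : Nat := om JT 5 38
noncomputable def oT5_40 : Nat := om JT 5 40
noncomputable def oT5_42 : Nat := om JT 5 42
noncomputable def oT6_36 : Nat := om JT 6 36
noncomputable def oT6_39 : Nat := om JT 6 39
noncomputable def oT6_40 : Nat := om JT 6 40
noncomputable def oT6_42 : Nat := om JT 6 42
noncomputable def oT7_35 : Nat := om JT 7 35
noncomputable def oT7_37 : Nat := om JT 7 37
noncomputable def oT7_38 : Nat := om JT 7 38
noncomputable def oT7_39 : Nat := om JT 7 39
noncomputable def oT7_40 : Nat := om JT 7 40
noncomputable def oT7_42 : Nat := om JT 7 42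
noncomputable def oT7_48 : Nat := om JT 7 48
noncomputable def oT8_48 : Nat := om JT 8 48
noncomputable def oT9_38 : Nat := om JT 9 38
noncomputable def oT9_42 : Nat := om JT 9 42
noncomputable def oT9_44 : Nat := om JT 9 44
noncomputable def oT9_48 : Nat := om JT 9 48
noncomputable def oT9_52 : Nat := om JT 9 52
noncomputable def oT10_41 : Nat := om JT 10 41
noncomputable def oT10_42 : Nat := om JT 10 42
noncomputable def oT10_43 : Nat := om JT 10 43
noncomputable def oT10_44 : Nat := om JT 10 44
noncomputable def oT10_45 : Nat := om JT 10 45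
noncomputable def oT10_46 : Nat := om JT 10 46
noncomputable def oT10_48 : Nat := om JT 10 48
noncomputable def oT10_51 : Nat := om JT 10 51
noncomputable def oT11_44 : Nat := om JT 11 44
noncomputable def oT11_46 : Nat := om JT 11 46
noncomputable def oT11_51 : Nat := om JT 11 51
noncomputable def oT11_52 : Nat := om JT 11 52
noncomputable def oT12_45 : Nat := om JT 12 45
noncomputable def oT12_46 : Nat := om JT 12 46
noncomputable def oT12_49 : Nat := om JT 12 49
noncomputable def oT12_50 : Nat := om JT 12 50
noncomputable def oT12_51 : Nat := om JT 12 51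
noncomputable def oT12_52 : Nat := om JT 12 52
noncomputable def oT13_44 : Nat := om JT 13 44
noncomputable def oT13_47 : Nat := om JT 13 47
noncomputable def oT13_48 : Nat := om JT 13 48
noncomputable def oT13_49 : Nat := om JT 13 49
noncomputable def oT13_50 : Nat := om JT 13 50
noncomputable def oT13_51 : Nat := om JT 13 51
noncomputable def oT13_52 : Nat := om JT 13 52
noncomputable def oT14_45 : Nat := om JT 14 45
noncomputable def oT14_46 : Nat := om JT 14 46
noncomputable def oT14_48 : Nat := om JT 14 48
noncomputable def oT14_49 : Nat := om JT 14 49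
noncomputable def oT14_50 : Nat := om JT 14 50
noncomputable def oT14_51 : Nat := om JT 14 51
noncomputable def oT15_49 : Nat := om JT 15 49
noncomputable def oT15_50 : Nat := om JT 15 50
noncomputable def oT15_51 : Nat := om JT 15 51
noncomputable def oT15_52 : Nat := om JT 15 52
noncomputable def oT16_49 : Nat := om JT 16 49
noncomputable def oT16_50 : Nat := om JT 16 50
noncomputable def oT16_51 : Nat := om JT 16 51
noncomputable def oT16_52 : Nat := om JT 16 52
noncomputable def oT17_49 : Nat := om JT 17 49
noncomputable def oT17_50 : Nat := om JT 17 50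
noncomputable def oT17_51 : Nat := om JT 17 51
noncomputable def oT17_52 : Nat := om JT 17 52
noncomputable def oT18_49 : Nat := om JT 18 49
noncomputable def oT18_50 : Nat := om JT 18 50
noncomputable def oT18_51 : Nat := om JT 18 51
noncomputable def oT18_52 : Nat := om JT 18 52
noncomputable def oT19_49 : Nat := om JT 19 49
noncomputable def oT19_50 : Nat := om JT 19 50
noncomputable def oT19_51 : Nat := om JT 19 51
noncomputable def oT19_52 : Nat := om JT 19 52
noncomputable def oT20_49 : Nat := om JT 20 49
noncomputable def oT20_50 : Nat := om JT 20 50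
noncomputable def oT20_51 : Nat := om JT 20 51
noncomputable def oT20_52 : Nat := om JT 20 52
noncomputable def oT21_49 : Nat := om JT 21 49
noncomputable def oT21_50 : Nat := om JT 21 50
noncomputable def oT21_51 : Nat := om JT 21 51
noncomputable def oT22_49 : Nat := om JT 22 49
noncomputable def oT22_50 : Nat := om JT 22 50
noncomputable def oT22_51 : Nat := om JT 22 51
noncomputable def oT22_52 : Nat := om JT 22 52
noncomputable def oT23_49 : Nat := om JT 23 49
noncomputable def oT23_50 : Nat := om JT 23 50
noncomputable def oT23_51 : Nat := om JT 23 51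
noncomputable def oT23_52 : Nat := om JT 23 52
noncomputable def oT24_49 : Nat := om JT 24 49
noncomputable def oT24_50 : Nat := om JT 24 50
noncomputable def oT24_51 : Nat := om JT 24 51
noncomputable def oT24_52 : Nat := om JT 24 52
noncomputable def oT25_49 : Nat := om JT 25 49
noncomputable def oT25_50 : Nat := om JT 25 50
noncomputable def oT25_51 : Nat := om JT 25 51
noncomputable def oT25_52 : Nat := om JT 25 52
noncomputable def oT26_49 : Nat := om JT 26 49
noncomputable def oT26_50 : Nat := om JT 26 50
noncomputable def oT26_51 : Nat := om JT 26 51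
noncomputable def oT26_52 : Nat := om JT 26 52
noncomputable def oT27_49 : Nat := om JT 27 49
noncomputable def oT27_50 : Nat := om JT 27 50
noncomputable def oT27_51 : Nat := om JT 27 51
noncomputable def oT27_52 : Nat := om JT 27 52
noncomputable def oT28_49 : Nat := om JT 28 49
noncomputable def oT28_50 : Nat := om JT 28 50
noncomputable def oT28_51 : Nat := om JT 28 51
noncomputable def oT29_49 : Nat := om JT 29 49
noncomputable def oT29_50 : Nat := om JT 29 50
noncomputable def oT29_51 : Nat := om JT 29 51
noncomputable def oT30_49 : Nat := om JT 30 49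
noncomputable def oT30_50 : Nat := om JT 30 50
noncomputable def oT30_51 : Nat := om JT 30 51
noncomputable def oT31_49 : Nat := om JT 31 49
noncomputable def oT31_50 : Nat := om JT 31 50
noncomputable def oT31_51 : Nat := om JT 31 51
noncomputable def oT32_49 : Nat := om JT 32 49
noncomputable def oT32_50 : Nat := om JT 32 50
noncomputable def oT32_51 : Nat := om JT 32 51
noncomputable def oT33_49 : Nat := om JT 33 49
noncomputable def oT33_50 : Nat := om JT 33 50
noncomputable def oT33_51 : Nat := om JT 33 51
noncomputable def oT34_49 : Nat := om JT 34 49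
noncomputable def oT34_50 : Nat := om JT 34 50
noncomputable def oT34_51 : Nat := om JT 34 51
noncomputable def oT35_49 : Nat := om JT 35 49
noncomputable def oT35_50 : Nat := om JT 35 50
noncomputable def oT35_51 : Nat := om JT 35 51
noncomputable def oT36_49 : Nat := om JT 36 49
noncomputable def oT36_50 : Nat := om JT 36 50
noncomputable def oT37_49 : Nat := om JT 37 49
noncomputable def oT37_50 : Nat := om JT 37 50
noncomputable def oT38_49 : Nat := om JT 38 49
noncomputable def oT38_50 : Nat := om JT 38 50
noncomputable def oT39_49 : Nat := om JT 39 49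
noncomputable def oT39_50 : Nat := om JT 39 50
noncomputable def oT40_49 : Nat := om JT 40 49
noncomputable def oT40_50 : Nat := om JT 40 50
noncomputable def oT41_49 : Nat := om JT 41 49
noncomputable def oT41_50 : Nat := om JT 41 50
noncomputable def oT42_49 : Nat := om JT 42 49
noncomputable def oT43_49 : Nat := om JT 43 49

end Vale.Agent.P181.K
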