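import Vale.Agent.P181.Six.KGlue
import Vale.Agent.P181.Six.T.K1_0
import Vale.Agent.P181.Six.T.K2_0
import Vale.Agent.P181.Six.T.K3_0
import Vale.Agent.P181.Six.T.K4_0
import Vale.Agent.P181.Six.T.K5_0
import Vale.Agent.P181.Six.T.K6_0
import Vale.Agent.P181.Six.T.K7_0
import Vale.Agent.P181.Six.T.K8_0
import Vale.Agent.P181.Six.T.K9_0
import Vale.Agent.P181.Six.T.K10_0
import Vale.Agent.P181.Six.T.K11_0
import Vale.Agent.P181.Six.T.K12_0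
import Vale.Agent.P181.Six.T.K13_0
import Vale.Agent.P181.Six.T.K14_0
import Vale.Agent.P181.Six.T.K15_0
import Vale.Agent.P181.Six.T.K16_0
import Vale.Agent.P181.Six.T.K17_0
import Vale.Agent.P181.Six.T.K18_0
import Vale.Agent.P181.Six.T.K19_0
import Vale.Agent.P181.Six.T.K20_0
import Vale.Agent.P181.Six.T.K21_0
import Vale.Agent.P181.Six.T.K22_0
import Vale.Agent.P181.Six.T.K23_0
import Vale.Agent.P181.Six.T.K24_0
import Vale.Agent.P181.Six.T.SK15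
import Vale.Agent.P181.Six.T.SK16
import Vale.Agent.P181.Six.T.SK17
import Vale.Agent.P181.Six.T.SK18
import Vale.Agent.P181.Six.T.SK19
import Vale.Agent.P181.Six.T.SK20
import Vale.Agent.P181.Six.T.SK21
import Vale.Agent.P181.Six.T.SK22
import Vale.Agent.P181.Six.T.SK23
import Vale.Agent.P181.Six.T.SK24
import Vale.Agent.P181.Six.T.Q0
import Vale.Agent.P181.Six.T.Q1
import Vale.Agent.P181.Six.T.Q2
import Vale.Agent.P181.Six.T.Q3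
import Vale.Agent.P181.Six.T.Q4
import Vale.Agent.P181.Six.T.Q5
import Vale.Agent.P181.Six.T.Q6
import Vale.Agent.P181.Six.T.Q7
import Vale.Agent.P181.Six.T.Q8
import Vale.Agent.P181.Six.T.Q9
import Vale.Agent.P181.Six.T.Q10
import Vale.Agent.P181.Six.T.Q11
import Vale.Agent.P181.Six.T.Q12
import Vale.Agent.P181.Six.T.Q13
import Vale.Agent.P181.Six.T.Q14
import Vale.Agent.P181.Six.T.Q15
import Vale.Agent.P181.Six.T.Q16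
import Vale.Agent.P181.Six.T.Q17
import Vale.Agent.P181.Six.T.Q18
import Vale.Agent.P181.Six.T.Q19
import Vale.Agent.P181.Six.T.Q20
import Vale.Agent.P181.Six.T.Q21
import Vale.Agent.P181.Six.T.Q22
import Vale.Agent.P181.Six.T.Q23

set_option maxRecDepth 100000
set_option maxHeartbeats 0

namespace Vale.Agent.P181.K

theorem tT_ok : TOK JT tT := tok_of_check (by decide +kernel)

theorem tT_anti : TAnti tT := tanti_of_check tT_ok (by decide +kernel)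

theorem tbT0_ok : TblOK JT tT 0 0 tbT0 := tbl0_ok (by decide +kernel) tT_ok

theorem bsT1_ok : BoxesOK JT tT 1 1 bsT1 :=
  boxes_step tT_anti tbT0_ok boxT0_eq BoxesOK.nil rfl rfl

theorem levT1 : LevOK JT 1 1 1 := by decide +kernel

theorem cT1_0_0_ok : ChunkOK JT tT 1 1 0 0 6 cT1_0_0 :=
  chunk_ok_of_beq levT1 tT_ok (TLe.refl _) bsT1_ok cT1_0_0_eq

theorem cT1_1_0_ok : ChunkOK JT tT 1 1 1 0 6 cT1_1_0 :=
  chunk_ok_of_beq levT1 tT_ok (TLe.refl _) bsT1_ok cT1_1_0_eq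

theorem cT1_2_0_ok : ChunkOK JT tT 1 1 2 0 6 cT1_2_0 :=
  chunk_ok_of_beq levT1 tT_ok (TLe.refl _) bsT1_ok cT1_2_0_eq

theorem tbT1_ok : TblOK JT tT 1 1 tbT1 := tblOK_of_from
  (tblFrom_cons tT_ok (Nat.le_refl 6) cT1_0_0_ok
  (tblFrom_cons tT_ok (Nat.le_refl 6) cT1_1_0_ok
  (tblFrom_cons tT_ok (Nat.le_refl 6) cT1_2_0_ok
  (tblFrom_nil tT_ok (Nat.le_refl 3)))))

theorem bsT2_ok : BoxesOK JT tT 2 3 bsT2 :=
  boxes_step tT_anti tbT1_ok boxT1_eq bsT1_ok rfl rfl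

theorem levT2 : LevOK JT 2 1 3 := by decide +kernel

theorem cT2_0_0_ok : ChunkOK JT tT 2 1 0 0 6 cT2_0_0 :=
  chunk_ok_of_beq levT2 tT_ok (TLe.refl _) bsT2_ok cT2_0_0_eq

theorem cT2_1_0_ok : ChunkOK JT tT 2 1 1 0 6 cT2_1_0 :=
  chunk_ok_of_beq levT2 tT_ok (TLe.refl _) bsT2_ok cT2_1_0_eq

theorem cT2_2_0_ok : ChunkOK JT tT 2 1 2 0 6 cT2_2_0 :=
  chunk_ok_of_beq levT2 tT_ok (TLe.refl _) bsT2_ok cT2_2_0_eq

theorem tbT2_ok : TblOK JT tT 2 1 tbT2 := tblOK_of_from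
  (tblFrom_cons tT_ok (Nat.le_refl 6) cT2_0_0_ok
  (tblFrom_cons tT_ok (Nat.le_refl 6) cT2_1_0_ok
  (tblFrom_cons tT_ok (Nat.le_refl 6) cT2_2_0_ok
  (tblFrom_nil tT_ok (Nat.le_refl 3)))))

theorem bsT3_ok : BoxesOK JT tT 3 5 bsT3 :=
  boxes_step tT_anti tbT2_ok boxT2_eq bsT2_ok rfl rfl

theorem levT3 : LevOK JT 3 2 5 := by decide +kernel

theorem cT3_0_0_ok : ChunkOK JT tT 3 2 0 0 6 cT3_0_0 :=
  chunk_ok_of_beq levT3 tT_ok (TLe.refl _) bsT3_ok cT3_0_0_eq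

theorem cT3_1_0_ok : ChunkOK JT tT 3 2 1 0 6 cT3_1_0 :=
  chunk_ok_of_beq levT3 tT_ok (TLe.refl _) bsT3_ok cT3_1_0_eq

theorem cT3_2_0_ok : ChunkOK JT tT 3 2 2 0 6 cT3_2_0 :=
  chunk_ok_of_beq levT3 tT_ok (TLe.refl _) bsT3_ok cT3_2_0_eq

theorem tbT3_ok : TblOK JT tT 3 2 tbT3 := tblOK_of_from
  (tblFrom_cons tT_ok (Nat.le_refl 6) cT3_0_0_ok
  (tblFrom_cons tT_ok (Nat.le_refl 6) cT3_1_0_ok
  (tblFrom_cons tT_ok (Nat.le_refl 6) cT3_2_0_ok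
  (tblFrom_nil tT_ok (Nat.le_refl 3)))))

theorem bsT4_ok : BoxesOK JT tT 4 9 bsT4 :=
  boxes_step tT_anti tbT3_ok boxT3_eq bsT3_ok rfl rfl

theorem levT4 : LevOK JT 4 3 9 := by decide +kernel

theorem cT4_0_0_ok : ChunkOK JT tT 4 3 0 0 6 cT4_0_0 :=
  chunk_ok_of_beq levT4 tT_ok (TLe.refl _) bsT4_ok cT4_0_0_eq

theorem cT4_1_0_ok : ChunkOK JT tT 4 3 1 0 6 cT4_1_0 :=
  chunk_ok_of_beq levT4 tT_ok (TLe.refl _) bsT4_ok cT4_1_0_eq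

theorem cT4_2_0_ok : ChunkOK JT tT 4 3 2 0 6 cT4_2_0 :=
  chunk_ok_of_beq levT4 tT_ok (TLe.refl _) bsT4_ok cT4_2_0_eq

theorem tbT4_ok : TblOK JT tT 4 3 tbT4 := tblOK_of_from
  (tblFrom_cons tT_ok (Nat.le_refl 6) cT4_0_0_ok
  (tblFrom_cons tT_ok (Nat.le_refl 6) cT4_1_0_ok
  (tblFrom_cons tT_ok (Nat.le_refl 6) cT4_2_0_ok
  (tblFrom_nil tT_ok (Nat.le_refl 3)))))

theorem bsT5_ok : BoxesOK JT tT 5 17 bsT5 :=
  boxes_step tT_anti tbT4_ok boxT4_eq bsT4_ok rfl rfl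

theorem levT5 : LevOK JT 5 5 17 := by decide +kernel

theorem cT5_0_0_ok : ChunkOK JT tT 5 5 0 0 6 cT5_0_0 :=
  chunk_ok_of_beq levT5 tT_ok (TLe.refl _) bsT5_ok cT5_0_0_eq

theorem cT5_1_0_ok : ChunkOK JT tT 5 5 1 0 6 cT5_1_0 :=
  chunk_ok_of_beq levT5 tT_ok (TLe.refl _) bsT5_ok cT5_1_0_eq

theorem cT5_2_0_ok : ChunkOK JT tT 5 5 2 0 6 cT5_2_0 :=
  chunk_ok_of_beq levT5 tT_ok (TLe.refl _) bsT5_ok cT5_2_0_eq

theorem tbT5_ok : TblOK JT tT 5 5 tbT5 := tblOK_of_from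
  (tblFrom_cons tT_ok (Nat.le_refl 6) cT5_0_0_ok
  (tblFrom_cons tT_ok (Nat.le_refl 6) cT5_1_0_ok
  (tblFrom_cons tT_ok (Nat.le_refl 6) cT5_2_0_ok
  (tblFrom_nil tT_ok (Nat.le_refl 3)))))

theorem bsT6_ok : BoxesOK JT tT 6 49 bsT6 :=
  boxes_step tT_anti tbT5_ok boxT5_eq bsT5_ok rfl rfl

theorem levT6 : LevOK JT 6 7 49 := by decide +kernel

theorem cT6_0_0_ok : ChunkOK JT tT 6 7 0 0 6 cT6_0_0 :=
  chunk_ok_of_beq levT6 tT_ok (TLe.refl _) bsT6_ok cT6_0_0_eq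

theorem cT6_1_0_ok : ChunkOK JT tT 6 7 1 0 6 cT6_1_0 :=
  chunk_ok_of_beq levT6 tT_ok (TLe.refl _) bsT6_ok cT6_1_0_eq

theorem cT6_2_0_ok : ChunkOK JT tT 6 7 2 0 6 cT6_2_0 :=
  chunk_ok_of_beq levT6 tT_ok (TLe.refl _) bsT6_ok cT6_2_0_eq

theorem tbT6_ok : TblOK JT tT 6 7 tbT6 := tblOK_of_from
  (tblFrom_cons tT_ok (Nat.le_refl 6) cT6_0_0_ok
  (tblFrom_cons tT_ok (Nat.le_refl 6) cT6_1_0_ok
  (tblFrom_cons tT_ok (Nat.le_refl 6) cT6_2_0_ok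
  (tblFrom_nil tT_ok (Nat.le_refl 3)))))

theorem bsT7_ok : BoxesOK JT tT 7 177 bsT7 :=
  boxes_step tT_anti tbT6_ok boxT6_eq bsT6_ok rfl rfl

theorem levT7 : LevOK JT 7 11 177 := by decide +kernel

theorem cT7_0_0_ok : ChunkOK JT tT 7 11 0 0 6 cT7_0_0 :=
  chunk_ok_of_beq levT7 tT_ok (TLe.refl _) bsT7_ok cT7_0_0_eq

theorem cT7_1_0_ok : ChunkOK JT tT 7 11 1 0 6 cT7_1_0 :=
  chunk_ok_of_beq levT7 tT_ok (TLe.refl _) bsT7_ok cT7_1_0_eq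

theorem cT7_2_0_ok : ChunkOK JT tT 7 11 2 0 6 cT7_2_0 :=
  chunk_ok_of_beq levT7 tT_ok (TLe.refl _) bsT7_ok cT7_2_0_eq

theorem tbT7_ok : TblOK JT tT 7 11 tbT7 := tblOK_of_from
  (tblFrom_cons tT_ok (Nat.le_refl 6) cT7_0_0_ok
  (tblFrom_cons tT_ok (Nat.le_refl 6) cT7_1_0_ok
  (tblFrom_cons tT_ok (Nat.le_refl 6) cT7_2_0_ok
  (tblFrom_nil tT_ok (Nat.le_refl 3)))))

theorem bsT8_ok : BoxesOK JT tT 8 2225 bsT8 :=
  boxes_step tT_anti tbT7_ok boxT7_eq bsT7_ok rfl rfl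

theorem levT8 : LevOK JT 8 14 2225 := by decide +kernel

theorem cT8_0_0_ok : ChunkOK JT tT 8 14 0 0 6 cT8_0_0 :=
  chunk_ok_of_beq levT8 tT_ok (TLe.refl _) bsT8_ok cT8_0_0_eq

theorem cT8_1_0_ok : ChunkOK JT tT 8 14 1 0 6 cT8_1_0 :=
  chunk_ok_of_beq levT8 tT_ok (TLe.refl _) bsT8_ok cT8_1_0_eq

theorem cT8_2_0_ok : ChunkOK JT tT 8 14 2 0 6 cT8_2_0 :=
  chunk_ok_of_beq levT8 tT_ok (TLe.refl _) bsT8_ok cT8_2_0_eq

theorem tbT8_ok : TblOK JT tT 8 14 tbT8 := tblOK_of_from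
  (tblFrom_cons tT_ok (Nat.le_refl 6) cT8_0_0_ok
  (tblFrom_cons tT_ok (Nat.le_refl 6) cT8_1_0_ok
  (tblFrom_cons tT_ok (Nat.le_refl 6) cT8_2_0_ok
  (tblFrom_nil tT_ok (Nat.le_refl 3)))))

theorem bsT9_ok : BoxesOK JT tT 9 18609 bsT9 :=
  boxes_step tT_anti tbT8_ok boxT8_eq bsT8_ok rfl rfl

theorem levT9 : LevOK JT 9 17 18609 := by decide +kernel

theorem cT9_0_0_ok : ChunkOK JT tT 9 17 0 0 6 cT9_0_0 :=
  chunk_ok_of_beq levT9 tT_ok (TLe.refl _) bsT9_ok cT9_0_0_eq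

theorem cT9_1_0_ok : ChunkOK JT tT 9 17 1 0 6 cT9_1_0 :=
  chunk_ok_of_beq levT9 tT_ok (TLe.refl _) bsT9_ok cT9_1_0_eq

theorem cT9_2_0_ok : ChunkOK JT tT 9 17 2 0 6 cT9_2_0 :=
  chunk_ok_of_beq levT9 tT_ok (TLe.refl _) bsT9_ok cT9_2_0_eq

theorem tbT9_ok : TblOK JT tT 9 17 tbT9 := tblOK_of_from
  (tblFrom_cons tT_ok (Nat.le_refl 6) cT9_0_0_ok
  (tblFrom_cons tT_ok (Nat.le_refl 6) cT9_1_0_ok
  (tblFrom_cons tT_ok (Nat.le_refl 6) cT9_2_0_ok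
  (tblFrom_nil tT_ok (Nat.le_refl 3)))))

theorem bsT10_ok : BoxesOK JT tT 10 149681 bsT10 :=
  boxes_step tT_anti tbT9_ok boxT9_eq bsT9_ok rfl rfl

theorem levT10 : LevOK JT 10 20 149681 := by decide +kernel

theorem cT10_0_0_ok : ChunkOK JT tT 10 20 0 0 6 cT10_0_0 :=
  chunk_ok_of_beq levT10 tT_ok (TLe.refl _) bsT10_ok cT10_0_0_eq

theorem cT10_1_0_ok : ChunkOK JT tT 10 20 1 0 6 cT10_1_0 :=
  chunk_ok_of_beq levT10 tT_ok (TLe.refl _) bsT10_ok cT10_1_0_eq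

theorem cT10_2_0_ok : ChunkOK JT tT 10 20 2 0 6 cT10_2_0 :=
  chunk_ok_of_beq levT10 tT_ok (TLe.refl _) bsT10_ok cT10_2_0_eq

theorem tbT10_ok : TblOK JT tT 10 20 tbT10 := tblOK_of_from
  (tblFrom_cons tT_ok (Nat.le_refl 6) cT10_0_0_ok
  (tblFrom_cons tT_ok (Nat.le_refl 6) cT10_1_0_ok
  (tblFrom_cons tT_ok (Nat.le_refl 6) cT10_2_0_ok
  (tblFrom_nil tT_ok (Nat.le_refl 3)))))

theorem bsT11_ok : BoxesOK JT tT 11 1198257 bsT11 :=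
  boxes_step tT_anti tbT10_ok boxT10_eq bsT10_ok rfl rfl

theorem levT11 : LevOK JT 11 23 1198257 := by decide +kernel

theorem cT11_0_0_ok : ChunkOK JT tT 11 23 0 0 6 cT11_0_0 :=
  chunk_ok_of_beq levT11 tT_ok (TLe.refl _) bsT11_ok cT11_0_0_eq

theorem cT11_1_0_ok : ChunkOK JT tT 11 23 1 0 6 cT11_1_0 :=
  chunk_ok_of_beq levT11 tT_ok (TLe.refl _) bsT11_ok cT11_1_0_eq

theorem cT11_2_0_ok : ChunkOK JT tT 11 23 2 0 6 cT11_2_0 :=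
  chunk_ok_of_beq levT11 tT_ok (TLe.refl _) bsT11_ok cT11_2_0_eq

theorem tbT11_ok : TblOK JT tT 11 23 tbT11 := tblOK_of_from
  (tblFrom_cons tT_ok (Nat.le_refl 6) cT11_0_0_ok
  (tblFrom_cons tT_ok (Nat.le_refl 6) cT11_1_0_ok
  (tblFrom_cons tT_ok (Nat.le_refl 6) cT11_2_0_ok
  (tblFrom_nil tT_ok (Nat.le_refl 3)))))

theorem bsT12_ok : BoxesOK JT tT 12 9586865 bsT12 :=
  boxes_step tT_anti tbT11_ok boxT11_eq bsT11_ok rfl rfl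

theorem levT12 : LevOK JT 12 25 9586865 := by decide +kernel

theorem cT12_0_0_ok : ChunkOK JT tT 12 25 0 0 6 cT12_0_0 :=
  chunk_ok_of_beq levT12 tT_ok (TLe.refl _) bsT12_ok cT12_0_0_eq

theorem cT12_1_0_ok : ChunkOK JT tT 12 25 1 0 6 cT12_1_0 :=
  chunk_ok_of_beq levT12 tT_ok (TLe.refl _) bsT12_ok cT12_1_0_eq

theorem cT12_2_0_ok : ChunkOK JT tT 12 25 2 0 6 cT12_2_0 :=
  chunk_ok_of_beq levT12 tT_ok (TLe.refl _) bsT12_ok cT12_2_0_eq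

theorem tbT12_ok : TblOK JT tT 12 25 tbT12 := tblOK_of_from
  (tblFrom_cons tT_ok (Nat.le_refl 6) cT12_0_0_ok
  (tblFrom_cons tT_ok (Nat.le_refl 6) cT12_1_0_ok
  (tblFrom_cons tT_ok (Nat.le_refl 6) cT12_2_0_ok
  (tblFrom_nil tT_ok (Nat.le_refl 3)))))

theorem bsT13_ok : BoxesOK JT tT 13 43141297 bsT13 :=
  boxes_step tT_anti tbT12_ok boxT12_eq bsT12_ok rfl rfl

theorem levT13 : LevOK JT 13 27 43141297 := by decide +kernel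

theorem cT13_0_0_ok : ChunkOK JT tT 13 27 0 0 6 cT13_0_0 :=
  chunk_ok_of_beq levT13 tT_ok (TLe.refl _) bsT13_ok cT13_0_0_eq

theorem cT13_1_0_ok : ChunkOK JT tT 13 27 1 0 6 cT13_1_0 :=
  chunk_ok_of_beq levT13 tT_ok (TLe.refl _) bsT13_ok cT13_1_0_eq

theorem cT13_2_0_ok : ChunkOK JT tT 13 27 2 0 6 cT13_2_0 :=
  chunk_ok_of_beq levT13 tT_ok (TLe.refl _) bsT13_ok cT13_2_0_eq

theorem tbT13_ok : TblOK JT tT 13 27 tbT13 := tblOK_of_from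
  (tblFrom_cons tT_ok (Nat.le_refl 6) cT13_0_0_ok
  (tblFrom_cons tT_ok (Nat.le_refl 6) cT13_1_0_ok
  (tblFrom_cons tT_ok (Nat.le_refl 6) cT13_2_0_ok
  (tblFrom_nil tT_ok (Nat.le_refl 3)))))

theorem bsT14_ok : BoxesOK JT tT 14 177359025 bsT14 :=
  boxes_step tT_anti tbT13_ok boxT13_eq bsT13_ok rfl rfl

theorem levT14 : LevOK JT 14 29 177359025 := by decide +kernel

theorem cT14_0_0_ok : ChunkOK JT tT 14 29 0 0 6 cT14_0_0 :=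
  chunk_ok_of_beq levT14 tT_ok (TLe.refl _) bsT14_ok cT14_0_0_eq

theorem cT14_1_0_ok : ChunkOK JT tT 14 29 1 0 6 cT14_1_0 :=
  chunk_ok_of_beq levT14 tT_ok (TLe.refl _) bsT14_ok cT14_1_0_eq

theorem cT14_2_0_ok : ChunkOK JT tT 14 29 2 0 6 cT14_2_0 :=
  chunk_ok_of_beq levT14 tT_ok (TLe.refl _) bsT14_ok cT14_2_0_eq

theorem tbT14_ok : TblOK JT tT 14 29 tbT14 := tblOK_of_from
  (tblFrom_cons tT_ok (Nat.le_refl 6) cT14_0_0_ok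
  (tblFrom_cons tT_ok (Nat.le_refl 6) cT14_1_0_ok
  (tblFrom_cons tT_ok (Nat.le_refl 6) cT14_2_0_ok
  (tblFrom_nil tT_ok (Nat.le_refl 3)))))

theorem bsT15_ok : BoxesOK JT tT 15 714229937 bsT15 :=
  boxes_step tT_anti tbT14_ok boxT14_eq bsT14_ok rfl rfl

theorem levT15 : LevOK JT 15 31 714229937 := by decide +kernel

theorem cT15_0_0_ok : ChunkOK JT tT 15 31 0 0 6 cT15_0_0 :=
  chunk_ok_of_beq levT15 tT_ok (TLe.refl _) bsT15_ok cT15_0_0_eq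

theorem cT15_1_0_ok : ChunkOK JT tT 15 31 1 0 6 cT15_1_0 :=
  chunk_ok_of_beq levT15 tT_ok (TLe.refl _) bsT15_ok cT15_1_0_eq

theorem cT15_2_0_ok : ChunkOK JT tT 15 31 2 0 6 cT15_2_0 :=
  chunk_ok_of_beq levT15 tT_ok (TLe.refl _) bsT15_ok cT15_2_0_eq

theorem tbT15_ok : TblOK JT tT 15 31 tbT15 := tblOK_of_from
  (tblFrom_cons tT_ok (Nat.le_refl 6) cT15_0_0_ok
  (tblFrom_cons tT_ok (Nat.le_refl 6) cT15_1_0_ok
  (tblFrom_cons tT_ok (Nat.le_refl 6) cT15_2_0_ok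
  (tblFrom_nil tT_ok (Nat.le_refl 3)))))

theorem bsT16_ok : BoxesOK JT tT 16 2861713585 bsT16 :=
  boxes_step tT_anti tbT15_ok boxT15_eq bsT15_ok rfl rfl

theorem levT16 : LevOK JT 16 32 2861713585 := by decide +kernel

theorem cT16_0_0_ok : ChunkOK JT tT 16 32 0 0 6 cT16_0_0 :=
  chunk_ok_of_beq levT16 tT_ok (TLe.refl _) bsT16_ok cT16_0_0_eq

theorem cT16_1_0_ok : ChunkOK JT tT 16 32 1 0 6 cT16_1_0 :=
  chunk_ok_of_beq levT16 tT_ok (TLe.refl _) bsT16_ok cT16_1_0_eq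

theorem cT16_2_0_ok : ChunkOK JT tT 16 32 2 0 6 cT16_2_0 :=
  chunk_ok_of_beq levT16 tT_ok (TLe.refl _) bsT16_ok cT16_2_0_eq

theorem tbT16_ok : TblOK JT tT 16 32 tbT16 := tblOK_of_from
  (tblFrom_cons tT_ok (Nat.le_refl 6) cT16_0_0_ok
  (tblFrom_cons tT_ok (Nat.le_refl 6) cT16_1_0_ok
  (tblFrom_cons tT_ok (Nat.le_refl 6) cT16_2_0_ok
  (tblFrom_nil tT_ok (Nat.le_refl 3)))))

theorem bsT17_ok : BoxesOK JT tT 17 7156680881 bsT17 :=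
  boxes_step tT_anti tbT16_ok boxT16_eq bsT16_ok rfl rfl

theorem levT17 : LevOK JT 17 34 7156680881 := by decide +kernel

theorem cT17_0_0_ok : ChunkOK JT tT 17 34 0 0 6 cT17_0_0 :=
  chunk_ok_of_beq levT17 tT_ok (TLe.refl _) bsT17_ok cT17_0_0_eq

theorem cT17_1_0_ok : ChunkOK JT tT 17 34 1 0 6 cT17_1_0 :=
  chunk_ok_of_beq levT17 tT_ok (TLe.refl _) bsT17_ok cT17_1_0_eq

theorem cT17_2_0_ok : ChunkOK JT tT 17 34 2 0 6 cT17_2_0 :=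
  chunk_ok_of_beq levT17 tT_ok (TLe.refl _) bsT17_ok cT17_2_0_eq

theorem tbT17_ok : TblOK JT tT 17 34 tbT17 := tblOK_of_from
  (tblFrom_cons tT_ok (Nat.le_refl 6) cT17_0_0_ok
  (tblFrom_cons tT_ok (Nat.le_refl 6) cT17_1_0_ok
  (tblFrom_cons tT_ok (Nat.le_refl 6) cT17_2_0_ok
  (tblFrom_nil tT_ok (Nat.le_refl 3)))))

theorem bsT18_ok : BoxesOK JT tT 18 24336550065 bsT18 :=
  boxes_step tT_anti tbT17_ok boxT17_eq bsT17_ok rfl rfl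

theorem levT18 : LevOK JT 18 35 24336550065 := by decide +kernel

theorem cT18_0_0_ok : ChunkOK JT tT 18 35 0 0 6 cT18_0_0 :=
  chunk_ok_of_beq levT18 tT_ok (TLe.refl _) bsT18_ok cT18_0_0_eq

theorem cT18_1_0_ok : ChunkOK JT tT 18 35 1 0 6 cT18_1_0 :=
  chunk_ok_of_beq levT18 tT_ok (TLe.refl _) bsT18_ok cT18_1_0_eq

theorem cT18_2_0_ok : ChunkOK JT tT 18 35 2 0 6 cT18_2_0 :=
  chunk_ok_of_beq levT18 tT_ok (TLe.refl _) bsT18_ok cT18_2_0_eq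

theorem tbT18_ok : TblOK JT tT 18 35 tbT18 := tblOK_of_from
  (tblFrom_cons tT_ok (Nat.le_refl 6) cT18_0_0_ok
  (tblFrom_cons tT_ok (Nat.le_refl 6) cT18_1_0_ok
  (tblFrom_cons tT_ok (Nat.le_refl 6) cT18_2_0_ok
  (tblFrom_nil tT_ok (Nat.le_refl 3)))))

theorem bsT19_ok : BoxesOK JT tT 19 58696288433 bsT19 :=
  boxes_step tT_anti tbT18_ok boxT18_eq bsT18_ok rfl rfl

theorem levT19 : LevOK JT 19 37 58696288433 := by decide +kernel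

theorem cT19_0_0_ok : ChunkOK JT tT 19 37 0 0 6 cT19_0_0 :=
  chunk_ok_of_beq levT19 tT_ok (TLe.refl _) bsT19_ok cT19_0_0_eq

theorem cT19_1_0_ok : ChunkOK JT tT 19 37 1 0 6 cT19_1_0 :=
  chunk_ok_of_beq levT19 tT_ok (TLe.refl _) bsT19_ok cT19_1_0_eq

theorem cT19_2_0_ok : ChunkOK JT tT 19 37 2 0 6 cT19_2_0 :=
  chunk_ok_of_beq levT19 tT_ok (TLe.refl _) bsT19_ok cT19_2_0_eq

theorem tbT19_ok : TblOK JT tT 19 37 tbT19 := tblOK_of_from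
  (tblFrom_cons tT_ok (Nat.le_refl 6) cT19_0_0_ok
  (tblFrom_cons tT_ok (Nat.le_refl 6) cT19_1_0_ok
  (tblFrom_cons tT_ok (Nat.le_refl 6) cT19_2_0_ok
  (tblFrom_nil tT_ok (Nat.le_refl 3)))))

theorem bsT20_ok : BoxesOK JT tT 20 196135241905 bsT20 :=
  boxes_step tT_anti tbT19_ok boxT19_eq bsT19_ok rfl rfl

theorem levT20 : LevOK JT 20 38 196135241905 := by decide +kernel

theorem cT20_0_0_ok : ChunkOK JT tT 20 38 0 0 6 cT20_0_0 :=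
  chunk_ok_of_beq levT20 tT_ok (TLe.refl _) bsT20_ok cT20_0_0_eq

theorem cT20_1_0_ok : ChunkOK JT tT 20 38 1 0 6 cT20_1_0 :=
  chunk_ok_of_beq levT20 tT_ok (TLe.refl _) bsT20_ok cT20_1_0_eq

theorem cT20_2_0_ok : ChunkOK JT tT 20 38 2 0 6 cT20_2_0 :=
  chunk_ok_of_beq levT20 tT_ok (TLe.refl _) bsT20_ok cT20_2_0_eq

theorem tbT20_ok : TblOK JT tT 20 38 tbT20 := tblOK_of_from
  (tblFrom_cons tT_ok (Nat.le_refl 6) cT20_0_0_ok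
  (tblFrom_cons tT_ok (Nat.le_refl 6) cT20_1_0_ok
  (tblFrom_cons tT_ok (Nat.le_refl 6) cT20_2_0_ok
  (tblFrom_nil tT_ok (Nat.le_refl 3)))))

theorem bsT21_ok : BoxesOK JT tT 21 471013148849 bsT21 :=
  boxes_step tT_anti tbT20_ok boxT20_eq bsT20_ok rfl rfl

theorem levT21 : LevOK JT 21 39 471013148849 := by decide +kernel

theorem cT21_0_0_ok : ChunkOK JT tT 21 39 0 0 6 cT21_0_0 :=
  chunk_ok_of_beq levT21 tT_ok (TLe.refl _) bsT21_ok cT21_0_0_eq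

theorem cT21_1_0_ok : ChunkOK JT tT 21 39 1 0 6 cT21_1_0 :=
  chunk_ok_of_beq levT21 tT_ok (TLe.refl _) bsT21_ok cT21_1_0_eq

theorem cT21_2_0_ok : ChunkOK JT tT 21 39 2 0 6 cT21_2_0 :=
  chunk_ok_of_beq levT21 tT_ok (TLe.refl _) bsT21_ok cT21_2_0_eq

theorem tbT21_ok : TblOK JT tT 21 39 tbT21 := tblOK_of_from
  (tblFrom_cons tT_ok (Nat.le_refl 6) cT21_0_0_ok
  (tblFrom_cons tT_ok (Nat.le_refl 6) cT21_1_0_ok
  (tblFrom_cons tT_ok (Nat.le_refl 6) cT21_2_0_ok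
  (tblFrom_nil tT_ok (Nat.le_refl 3)))))

theorem bsT22_ok : BoxesOK JT tT 22 1020768962737 bsT22 :=
  boxes_step tT_anti tbT21_ok boxT21_eq bsT21_ok rfl rfl

theorem levT22 : LevOK JT 22 41 1020768962737 := by decide +kernel

theorem cT22_0_0_ok : ChunkOK JT tT 22 41 0 0 6 cT22_0_0 :=
  chunk_ok_of_beq levT22 tT_ok (TLe.refl _) bsT22_ok cT22_0_0_eq

theorem cT22_1_0_ok : ChunkOK JT tT 22 41 1 0 6 cT22_1_0 :=
  chunk_ok_of_beq levT22 tT_ok (TLe.refl _) bsT22_ok cT22_1_0_eq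

theorem cT22_2_0_ok : ChunkOK JT tT 22 41 2 0 6 cT22_2_0 :=
  chunk_ok_of_beq levT22 tT_ok (TLe.refl _) bsT22_ok cT22_2_0_eq

theorem tbT22_ok : TblOK JT tT 22 41 tbT22 := tblOK_of_from
  (tblFrom_cons tT_ok (Nat.le_refl 6) cT22_0_0_ok
  (tblFrom_cons tT_ok (Nat.le_refl 6) cT22_1_0_ok
  (tblFrom_cons tT_ok (Nat.le_refl 6) cT22_2_0_ok
  (tblFrom_nil tT_ok (Nat.le_refl 3)))))

theorem bsT23_ok : BoxesOK JT tT 23 3219792218289 bsT23 :=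
  boxes_step tT_anti tbT22_ok boxT22_eq bsT22_ok rfl rfl

theorem levT23 : LevOK JT 23 42 3219792218289 := by decide +kernel

theorem cT23_0_0_ok : ChunkOK JT tT 23 42 0 0 6 cT23_0_0 :=
  chunk_ok_of_beq levT23 tT_ok (TLe.refl _) bsT23_ok cT23_0_0_eq

theorem cT23_1_0_ok : ChunkOK JT tT 23 42 1 0 6 cT23_1_0 :=
  chunk_ok_of_beq levT23 tT_ok (TLe.refl _) bsT23_ok cT23_1_0_eq

theorem cT23_2_0_ok : ChunkOK JT tT 23 42 2 0 6 cT23_2_0 :=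
  chunk_ok_of_beq levT23 tT_ok (TLe.refl _) bsT23_ok cT23_2_0_eq

theorem tbT23_ok : TblOK JT tT 23 42 tbT23 := tblOK_of_from
  (tblFrom_cons tT_ok (Nat.le_refl 6) cT23_0_0_ok
  (tblFrom_cons tT_ok (Nat.le_refl 6) cT23_1_0_ok
  (tblFrom_cons tT_ok (Nat.le_refl 6) cT23_2_0_ok
  (tblFrom_nil tT_ok (Nat.le_refl 3)))))

theorem bsT24_ok : BoxesOK JT tT 24 7617838729393 bsT24 :=
  boxes_step tT_anti tbT23_ok boxT23_eq bsT23_ok rfl rfl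

theorem levT24 : LevOK JT 24 43 7617838729393 := by decide +kernel

theorem cT24_0_0_ok : ChunkOK JT tT 24 43 0 0 6 cT24_0_0 :=
  chunk_ok_of_beq levT24 tT_ok (TLe.refl _) bsT24_ok cT24_0_0_eq

theorem cT24_1_0_ok : ChunkOK JT tT 24 43 1 0 6 cT24_1_0 :=
  chunk_ok_of_beq levT24 tT_ok (TLe.refl _) bsT24_ok cT24_1_0_eq

theorem cT24_2_0_ok : ChunkOK JT tT 24 43 2 0 6 cT24_2_0 :=
  chunk_ok_of_beq levT24 tT_ok (TLe.refl _) bsT24_ok cT24_2_0_eq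

theorem tbT24_ok : TblOK JT tT 24 43 tbT24 := tblOK_of_from
  (tblFrom_cons tT_ok (Nat.le_refl 6) cT24_0_0_ok
  (tblFrom_cons tT_ok (Nat.le_refl 6) cT24_1_0_ok
  (tblFrom_cons tT_ok (Nat.le_refl 6) cT24_2_0_ok
  (tblFrom_nil tT_ok (Nat.le_refl 3)))))

theorem srcT15_ok : SrcOK ⟨15, srcT15⟩ :=
  src_step (by decide +kernel) tT_ok tbT15_ok rfl rfl srcT15_eq

theorem srcT16_ok : SrcOK ⟨16, srcT16⟩ :=
  src_step (by decide +kernel) tT_ok tbT16_ok rfl rfl srcT16_eq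

theorem srcT17_ok : SrcOK ⟨17, srcT17⟩ :=
  src_step (by decide +kernel) tT_ok tbT17_ok rfl rfl srcT17_eq

theorem srcT18_ok : SrcOK ⟨18, srcT18⟩ :=
  src_step (by decide +kernel) tT_ok tbT18_ok rfl rfl srcT18_eq

theorem srcT19_ok : SrcOK ⟨19, srcT19⟩ :=
  src_step (by decide +kernel) tT_ok tbT19_ok rfl rfl srcT19_eq

theorem srcT20_ok : SrcOK ⟨20, srcT20⟩ :=
  src_step (by decide +kernel) tT_ok tbT20_ok rfl rfl srcT20_eq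

theorem srcT21_ok : SrcOK ⟨21, srcT21⟩ :=
  src_step (by decide +kernel) tT_ok tbT21_ok rfl rfl srcT21_eq

theorem srcT22_ok : SrcOK ⟨22, srcT22⟩ :=
  src_step (by decide +kernel) tT_ok tbT22_ok rfl rfl srcT22_eq

theorem srcT23_ok : SrcOK ⟨23, srcT23⟩ :=
  src_step (by decide +kernel) tT_ok tbT23_ok rfl rfl srcT23_eq

theorem srcT24_ok : SrcOK ⟨24, srcT24⟩ :=
  src_step (by decide +kernel) tT_ok tbT24_ok rfl rfl srcT24_eq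


end Vale.Agent.P181.K
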